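import Vale.Agent.P235.K5.SX.Defs
import Vale.Agent.P235.K5.SX.H183.S3

set_option autoImplicit false

/-! # Line SX, row [S3], in the literal of K5/SX/Defs (helper183) -/

namespace Vale.Agent.P235.K5.SX.H183

open Vale.Agent.P235 Vale.Agent.P235.K5

/-- **[S3]** -/
theorem s3 : SX.S3Stmt := by
  intro V _ H n B T h d hd hG k _ hP
  exact exists_A3 h hd hG hP

end Vale.Agent.P235.K5.SX.H183
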